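import Vale.Agent.P070.MathlibUsed

namespace Vale.Agent.P070.Naimark

universe u v

section
variable (A : Type u) [NonUnitalCStarAlgebra A] (L : Type v) [NormedAddCommGroup L]
  [InnerProductSpace ℂ L] [CompleteSpace L]

/-- Representations of the C*-algebra `A` on the Hilbert space `L`: `*`-homomorphisms
`A → B(L)`. -/
def Rep : Type (max u v) := A →⋆ₙₐ[ℂ] (L →L[ℂ] L)

variable {A L}

/-- The operator `π(a)`. -/
def Rep.op (π : Rep A L) (a : A) : L →L[ℂ] L := NonUnitalStarAlgHom.toNonUnitalAlgHom π a

/-- `π` is irreducible: `π ≠ 0` and `0` and `L` are the only closed invariant subspaces. -/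
def IsIrred (π : Rep A L) : Prop :=
  (∃ a x, π.op a x ≠ 0) ∧ ∀ V : Submodule ℂ L, IsClosed (V : Set L) →
    (∀ a, ∀ x ∈ V, π.op a x ∈ V) → V = ⊥ ∨ V = ⊤

/-- Unitary equivalence of two representations. -/
def UnitEquiv {M : Type v} [NormedAddCommGroup M] [InnerProductSpace ℂ M] [CompleteSpace M]
    (π : Rep A L) (σ : Rep A M) : Prop :=
  ∃ W : L ≃ₗᵢ[ℂ] M, ∀ a x, W (π.op a x) = σ.op a (W x)

/-- `π` is injective. -/
def IsFaithful (π : Rep A L) : Prop := Function.Injective π.op

/-- The range of `π` is the set of all compact operators. -/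
def RangeIsCompacts (π : Rep A L) : Prop := ∀ T : L →L[ℂ] L, IsCompactOperator T ↔ ∃ a, π.op a = T

end

/-- Property (N): `A ≠ 0` and any two irreducible representations of `A` are unitarily
equivalent. -/
def PropertyN (A : Type u) [NonUnitalCStarAlgebra A] : Prop :=
  Nontrivial A ∧ ∀ (L M : Type v)
    [NormedAddCommGroup L] [InnerProductSpace ℂ L] [CompleteSpace L]
    [NormedAddCommGroup M] [InnerProductSpace ℂ M] [CompleteSpace M]
    (π : Rep A L) (σ : Rep A M), IsIrred π → IsIrred σ → UnitEquiv π σ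

/-- `A` is `*`-isomorphic to the algebra `K(L)` of compact operators on a Hilbert space `L`. -/
def IsCompacts (A : Type u) [NonUnitalCStarAlgebra A] : Prop :=
  ∃ (L : Type v) (_ : NormedAddCommGroup L) (_ : InnerProductSpace ℂ L) (_ : CompleteSpace L)
    (π : Rep A L), IsFaithful π ∧ RangeIsCompacts π

/-- `A` has a faithful irreducible representation. -/
def HasFaithfulIrrep (A : Type u) [NonUnitalCStarAlgebra A] : Prop :=
  ∃ (L : Type v) (_ : NormedAddCommGroup L) (_ : InnerProductSpace ℂ L) (_ : CompleteSpace L)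
    (π : Rep A L), IsFaithful π ∧ IsIrred π

end Vale.Agent.P070.Naimark
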