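import Mathlib.Algebra.Order.Archimedean.Real.Hom
import Mathlib.Algebra.Ring.IsFormallyReal
import Mathlib.Analysis.CStarAlgebra.CompletelyPositiveMap
import Mathlib.Analysis.CStarAlgebra.ContinuousFunctionalCalculus.Range
import Mathlib.Analysis.InnerProductSpace.Completion
import Mathlib.Analysis.InnerProductSpace.StarOrder
import Mathlib.Analysis.InnerProductSpace.l2Space
import Mathlib.Order.CompletePartialOrder
import Mathlib.RingTheory.Flat.TorsionFree
import Mathlib.RingTheory.RegularLocalRing.Defs
import Mathlib.RingTheory.SimpleRing.Principal
import Mathlib.Tactic
import Mathlib.Topology.Algebra.LinearMapCompletion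
import Mathlib.Topology.Filter
import Mathlib.Topology.Order.LowerUpperTopology
import Mathlib.Topology.Separation.CompletelyRegular

/-! The part of Mathlib that the development of this folder uses. -/
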